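import Vale.Agent.P321.Final
import Vale.Agent.P321.Finite

/-!
# P321: the worst-case sample complexity of trace reconstruction grows faster than every polynomial
-/

namespace Vale.Agent.Results.P321.Superpolynomial

open Filter

/-- The trace of `x ∈ {0,1}^n` when `s` is the set of surviving positions: the bits of `x` at the
positions in `s`, in their original order. -/
def traceOf {n : ℕ} (x : Fin n → Bool) (s : Finset (Fin n)) : List Bool :=
  (s.sort (· ≤ ·)).map x

/-- The probability that `s` is the set of surviving positions, when every one of the `n` positions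
is deleted independently with probability `q`. -/
noncomputable def survivalProb (q : ℝ) {n : ℕ} (s : Finset (Fin n)) : ℝ :=
  (1 - q) ^ s.card * q ^ (n - s.card)

/-- A randomized estimator: for every `m`-tuple `z` of binary strings a probability distribution
`est z` on `{0,1}^n` (the distribution of the output). -/
def IsEstimator {n m : ℕ} (est : (Fin m → List Bool) → (Fin n → Bool) → ℝ) : Prop :=
  (∀ z x, 0 ≤ est z x) ∧ ∀ z, ∑ x, est z x = 1

/-- The probability that the estimator outputs `x` on `m` independent traces of `x`: the sum over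
the `m` independent sets of surviving positions. -/
noncomputable def successProb (q : ℝ) {n m : ℕ}
    (est : (Fin m → List Bool) → (Fin n → Bool) → ℝ) (x : Fin n → Bool) : ℝ :=
  ∑ s : Fin m → Finset (Fin n),
    (∏ i, survivalProb q (s i)) * est (fun i => traceOf x (s i)) x

/-- `m` traces suffice: some estimator outputs `x` with probability at least `2/3`, for every
`x ∈ {0,1}^n`. -/
def Suffices (q : ℝ) (n m : ℕ) : Prop :=
  ∃ est : (Fin m → List Bool) → (Fin n → Bool) → ℝ,
    IsEstimator est ∧ ∀ x, 2 / 3 ≤ successProb q est x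

/-- The worst-case sample complexity `T_q(n)`: the least number of traces that suffices. -/
noncomputable def T (q : ℝ) (n : ℕ) : ℕ := sInf {m | Suffices q n m}

theorem suffices_iff (q : ℝ) (n m : ℕ) :
    Suffices q n m ↔ Vale.Agent.P321.Reconstructs q n m := by
  constructor
  · rintro ⟨est, ⟨h1, h2⟩, h3⟩
    exact ⟨est, h1, h2, h3⟩
  · rintro ⟨est, h1, h2, h3⟩
    exact ⟨est, ⟨h1, h2⟩, h3⟩

/-- For every fixed deletion probability `q ∈ (0,1)`: `T_q(n)` is attained (it is the least number
of traces that suffices), and it grows faster than every power of `n`; in particular it is not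
bounded by a polynomial in `n`. -/
theorem result (q : ℝ) (h0 : 0 < q) (h1 : q < 1) :
    (∀ n : ℕ, Suffices q n (T q n) ∧ ∀ m : ℕ, Suffices q n m → T q n ≤ m) ∧
    (∀ a : ℝ, ∀ᶠ n : ℕ in atTop, (n : ℝ) ^ a < (T q n : ℝ)) ∧
    ¬ ∃ C d : ℝ, ∀ n : ℕ, 1 ≤ n → (T q n : ℝ) ≤ C * (n : ℝ) ^ d := by
  have hne : ∀ n : ℕ, {m | Suffices q n m}.Nonempty := by
    intro n
    obtain ⟨m, hm⟩ := Vale.Agent.P321.exists_reconstructs h0 h1 n
    exact ⟨m, (suffices_iff q n m).mpr hm⟩
  have hmin : ∀ n : ℕ, Suffices q n (T q n) := fun n => Nat.sInf_mem (hne n)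
  have hgrow : ∀ a : ℝ, ∀ᶠ n : ℕ in atTop, (n : ℝ) ^ a < (T q n : ℝ) := by
    intro a
    filter_upwards [Vale.Agent.P321.main h0 h1 a] with n hn
    by_contra hcon
    exact hn (T q n) (not_lt.mp hcon) ((suffices_iff q n _).mp (hmin n))
  refine ⟨fun n => ⟨hmin n, fun m hm => Nat.sInf_le hm⟩, hgrow, ?_⟩
  rintro ⟨C, d, hC⟩
  have h2 : ∀ᶠ n : ℕ in atTop, C ≤ (n : ℝ) :=
    tendsto_natCast_atTop_atTop.eventually_ge_atTop C
  obtain ⟨n, hn1, hn2, hn3⟩ := ((hgrow (d + 1)).and (h2.and (eventually_ge_atTop 1))).exists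
  have hn0 : (0 : ℝ) < n := by exact_mod_cast hn3
  have h3 := hC n hn3
  have h4 : C * (n : ℝ) ^ d ≤ n * (n : ℝ) ^ d :=
    mul_le_mul_of_nonneg_right hn2 (Real.rpow_nonneg hn0.le d)
  rw [Real.rpow_add hn0, Real.rpow_one] at hn1
  linarith [mul_comm ((n : ℝ) ^ d) (n : ℝ)]

end Vale.Agent.Results.P321.Superpolynomial
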